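import Vale.Agent.P106.AN.F273.TopA

/-! # P106 / AN : the estimate on the half cube from the multiscale theorem (helper273) -/

open MeasureTheory Complex Set
open Vale.Agent.P122.C2 (Z2 fw fn par kids Cap)
open Vale.Agent.P106.W (Nd s0 tl Amp Cbx InB hh KTop StCORE)
open scoped ENNReal NNReal FourierTransform

set_option linter.all false
set_option autoImplicit false

namespace Vale.Agent.P106.AN.TopS

theorem lint_biUnion_le {ι : Type*} (s : Finset ι) (A : ι → Set E4) (f : E4 → ℝ≥0∞) :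
    ∫⁻ z in ⋃ i ∈ s, A i, f z ≤ ∑ i ∈ s, ∫⁻ z in A i, f z := by
  classical
  induction s using Finset.induction_on with
  | empty => simp
  | insert i s hi ih =>
    rw [Finset.sum_insert hi, Finset.set_biUnion_insert]
    exact (lintegral_union_le f _ _).trans (by gcongr)

/-! ## cells -/

open Classical in
/-- the cells of the half cube -/
noncomputable def XX (K h n : ℕ) : Finset Nd :=
  ((((Fintype.piFinset fun _ : Fin 2 => Finset.Icc (-(2 ^ (2 * K * n)) : ℤ) (2 ^ (2 * K * n))) ×ˢ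
    Finset.Ico (0:ℤ) (2 ^ (2 * K * n))) ×ˢ Finset.Icc (-(2 * 2 ^ (2 * K * n)) : ℤ) (2 * 2 ^ (2 * K * n))).image
      fun q => (⟨⟨0, q.1.1, q.1.2⟩, q.2⟩ : Nd)).filter fun x => |(x.w : ℝ)| * 2 ^ (h * n) ≤ 2 * 2 ^ (2 * K * n)

theorem mem_XX {K h n : ℕ} {x : Nd} : x ∈ XX K h n ↔
    x.b.τ = 0 ∧ 0 ≤ x.b.T ∧ x.b.T < 2 ^ (2 * K * n) ∧ (∀ k, |x.b.o k| ≤ 2 ^ (2 * K * n)) ∧
      |(x.w : ℝ)| * 2 ^ (h * n) ≤ 2 * 2 ^ (2 * K * n) := by
  unfold XX
  rw [Finset.mem_filter, Finset.mem_image]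
  constructor
  · rintro ⟨⟨q, hq, rfl⟩, hw⟩
    rw [Finset.mem_product, Finset.mem_product, Fintype.mem_piFinset, Finset.mem_Ico] at hq
    refine ⟨rfl, hq.1.2.1, hq.1.2.2, fun k => ?_, hw⟩
    have := Finset.mem_Icc.1 (hq.1.1 k)
    exact abs_le.2 this
  · rintro ⟨h1, h2, h3, h4, h5⟩
    refine ⟨⟨((x.b.o, x.b.T), x.w), ?_, ?_⟩, h5⟩
    · rw [Finset.mem_product, Finset.mem_product, Fintype.mem_piFinset, Finset.mem_Ico]
      refine ⟨⟨fun k => Finset.mem_Icc.2 (abs_le.1 (h4 k)), h2, h3⟩, ?_⟩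
      rw [Finset.mem_Icc]
      apply abs_le.1
      have h6 : (1:ℝ) ≤ 2 ^ (h * n) := one_le_pow₀ (by norm_num)
      have h7 : |(x.w : ℝ)| ≤ 2 * 2 ^ (2 * K * n) := le_trans (by nlinarith [abs_nonneg (x.w : ℝ)]) h5
      exact_mod_cast h7
    · obtain ⟨⟨τ', o', T'⟩, w'⟩ := x
      simp only at h1
      subst h1
      rfl

/-- the half cube is covered by the cells -/
theorem half_subset (K h n : ℕ) (hhK : h ≤ 2 * K) :
    {z : E4 | (∀ i, |z i| ≤ 2 ^ (2 * K * n)) ∧ 0 ≤ z 2} ⊆ ⋃ x ∈ XX K h n, cube h n x := by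
  intro z hz
  obtain ⟨h0, h2⟩ := hz
  have hRi : (1:ℤ) ≤ 2 ^ (2 * K * n) := one_le_pow₀ (by norm_num)
  have hcast : ((2 ^ (2 * K * n) : ℤ) : ℝ) = 2 ^ (2 * K * n) := by push_cast; rfl
  have hH : (0:ℝ) < 2 ^ (h * n) := by positivity
  have hHR : (2:ℝ) ^ (h * n) ≤ 2 ^ (2 * K * n) := pow_le_pow_right₀ (by norm_num) (Nat.mul_le_mul_right n hhK)
  rw [Set.mem_iUnion₂]
  refine ⟨⟨⟨0, ![⌊z 0⌋, ⌊z 1⌋], min ⌊z 2⌋ ((2 ^ (2 * K * n) : ℤ) - 1)⟩, ⌊z 3 / 2 ^ (h * n)⌋⟩, ?_, ?_⟩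
  · rw [mem_XX]
    refine ⟨rfl, ?_, ?_, ?_, ?_⟩
    · simp only
      have : 0 ≤ ⌊z 2⌋ := Int.floor_nonneg.2 h2
      omega
    · simp only
      omega
    · have hh : ∀ t : ℝ, |t| ≤ ((2 ^ (2 * K * n) : ℤ) : ℝ) → |⌊t⌋| ≤ (2 ^ (2 * K * n) : ℤ) := by
        intro t ht
        rw [abs_le] at ht ⊢
        constructor
        · rw [Int.le_floor]
          push_cast at ht ⊢
          exact ht.1
        · have : ⌊t⌋ ≤ ⌊((2 ^ (2 * K * n) : ℤ):ℝ)⌋ := Int.floor_le_floor ht.2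
          rwa [Int.floor_intCast] at this
      intro k
      fin_cases k
      · exact hh _ (by rw [hcast]; exact h0 0)
      · exact hh _ (by rw [hcast]; exact h0 1)
    · simp only
      have h3 := abs_le.1 (h0 3)
      have f1 := Int.floor_le (z 3 / 2 ^ (h * n))
      have f2 := Int.lt_floor_add_one (z 3 / 2 ^ (h * n))
      rw [le_div_iff₀ hH] at f1
      rw [div_lt_iff₀ hH] at f2
      rw [← abs_of_pos hH, ← abs_mul, abs_le, abs_of_pos hH]
      constructor <;> nlinarith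
  · unfold cube
    simp only [Set.mem_setOf_eq, Matrix.cons_val_zero, Matrix.cons_val_one]
    refine ⟨⟨Int.floor_le _, (Int.lt_floor_add_one _).le⟩, ⟨Int.floor_le _, (Int.lt_floor_add_one _).le⟩, ?_, ?_⟩
    · constructor
      · exact le_trans (by exact_mod_cast min_le_left _ _) (Int.floor_le _)
      · rcases le_total ⌊z 2⌋ ((2 ^ (2 * K * n) : ℤ) - 1) with hc | hc
        · rw [min_eq_left hc]
          exact (Int.lt_floor_add_one _).le
        · rw [min_eq_right hc]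
          push_cast
          have := (abs_le.1 (h0 2)).2
          linarith
    · have f1 := Int.floor_le (z 3 / 2 ^ (h * n))
      have f2 := Int.lt_floor_add_one (z 3 / 2 ^ (h * n))
      rw [le_div_iff₀ hH] at f1
      rw [div_lt_iff₀ hH] at f2
      constructor <;> linarith

theorem cube_eq (h n : ℕ) (x : Nd) : cube h n x = (WithLp.ofLp : E4 → Fin 4 → ℝ) ⁻¹'
    (Set.Icc ![(x.b.o 0 : ℝ), x.b.o 1, x.b.T, 2 ^ (h * n) * (x.w : ℝ)]
      ![(x.b.o 0 : ℝ) + 1, x.b.o 1 + 1, x.b.T + 1, 2 ^ (h * n) * ((x.w : ℝ) + 1)]) := by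
  ext z
  unfold cube
  simp only [Set.mem_setOf_eq, Set.mem_preimage, Set.mem_Icc, Pi.le_def, Fin.forall_fin_succ]
  simp
  tauto

theorem meas_cube (h n : ℕ) (x : Nd) : MeasurableSet (cube h n x) := by
  rw [cube_eq]
  exact (PiLp.volume_preserving_ofLp (Fin 4)).measurable measurableSet_Icc

theorem vol_cube (h n : ℕ) (x : Nd) : volume (cube h n x) = ENNReal.ofReal (2 ^ (h * n)) := by
  rw [cube_eq, (PiLp.volume_preserving_ofLp (Fin 4)).measure_preimage measurableSet_Icc.nullMeasurableSet, Real.volume_Icc_pi,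
    Fin.prod_univ_four]
  simp
  ring_nf
  rw [ENNReal.ofReal_pow (by norm_num)]
  simp

/-- one cell -/
theorem lint_cube (h n : ℕ) (x : Nd) (f : E4 → ℂ) (p A : ℝ) (hp : 0 ≤ p) (hA : 0 ≤ A) (hf : ∀ z ∈ cube h n x, ‖f z‖ ≤ A) :
    ∫⁻ z in cube h n x, ‖f z‖ₑ ^ p ≤ ENNReal.ofReal (A ^ p * 2 ^ (h * n)) := by
  calc ∫⁻ z in cube h n x, ‖f z‖ₑ ^ p ≤ ∫⁻ z in cube h n x, ENNReal.ofReal (A ^ p) := by
        refine setLIntegral_mono' (meas_cube h n x) fun z hz => ?_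
        rw [← ENNReal.ofReal_rpow_of_nonneg hA hp]
        refine ENNReal.rpow_le_rpow ?_ hp
        rw [← ofReal_norm_eq_enorm]
        exact ENNReal.ofReal_le_ofReal (hf z hz)
    _ = _ := by
        rw [setLIntegral_const, vol_cube, ← ENNReal.ofReal_mul (by positivity)]

theorem am2_anti {M M' h n i : ℕ} (hM : M ≤ M') (S : Nd) (f : E4 → ℂ) : am2 M' h n i S f ≤ am2 M h n i S f := by
  unfold am2 wN
  gcongr with z
  exact wg_anti hM (by positivity) (by positivity) (by positivity) (by positivity) _ _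

/-- [KTop] from `KTn` -/
theorem ktop {C C1 c c' Λ : ℝ} {M K h n : ℕ} {g : Z2 → E4 → ℂ} {a : Nd → ℝ} (hC : 0 ≤ C) (hΛ : 0 ≤ Λ) (hc : c' ≤ c)
    (hs : ∀ S, a S ≠ 0 → S.b.T = 0 ∧ Cap n K S.b.τ ∧ (∀ k, |(S.b.o k : ℝ)| ≤ C1 * 2 ^ (K * n)) ∧
      |(S.w : ℝ)| * 2 ^ (h * n) ≤ C1 * 2 ^ (2 * K * n))
    (ht : ∀ S, ENNReal.ofReal (a S ^ 2) ≤ ENNReal.ofReal C * am2 M h n K S (pie K n g K S.b.τ))
    (hK : KTn c C1 M h K n g Λ) (B : Cbx) (U : Finset Nd) (hB : B.ok c' ((1 / 2 : ℝ) ^ (K * n)) (hh n h K))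
    (hU : ∀ S ∈ U, InB n h K B S) :
    ∑ S ∈ U, a S ^ 2 ≤ C * Λ * B.vol ((1 / 2 : ℝ) ^ (K * n)) (hh n h K) := by
  classical
  have e1 : ∑ S ∈ U, a S ^ 2 = ∑ S ∈ U.filter (fun S => a S ≠ 0), a S ^ 2 := by
    rw [Finset.sum_filter]
    refine Finset.sum_congr rfl fun S _ => ?_
    by_cases h0 : a S = 0
    · simp [h0]
    · simp [h0]
  have hrp : (0:ℝ) < (1 / 2 : ℝ) ^ (K * n) := by positivity
  have hu1 : 0 ≤ B.u1 := hrp.le.trans hB.r1
  have hu2 : 0 ≤ B.u2 := hu1.trans hB.u12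
  have hH : 0 < hh n h K := by unfold hh; positivity
  have hvol : 0 ≤ B.vol ((1 / 2 : ℝ) ^ (K * n)) (hh n h K) := by
    unfold Cbx.vol
    positivity
  have h1 := hK B (U.filter (fun S => a S ≠ 0)) ⟨hB.r1, hB.u12, hB.u2, hB.α2.trans hc, hB.κ2.trans hc, hB.αH, hB.κH⟩ (by
    intro S hS
    rw [Finset.mem_filter] at hS
    obtain ⟨k1, k2, k3, k4⟩ := hs S hS.2
    exact ⟨hU S hS.1, k1, k2, k3, k4⟩)
  rw [e1]
  have h2 : ENNReal.ofReal (∑ S ∈ U.filter (fun S => a S ≠ 0), a S ^ 2) ≤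
      ENNReal.ofReal (C * Λ * B.vol ((1 / 2 : ℝ) ^ (K * n)) (hh n h K)) := by
    rw [ENNReal.ofReal_sum_of_nonneg fun S _ => sq_nonneg _, mul_assoc, ENNReal.ofReal_mul hC]
    calc ∑ S ∈ U.filter (fun S => a S ≠ 0), ENNReal.ofReal (a S ^ 2)
        ≤ ∑ S ∈ U.filter (fun S => a S ≠ 0), ENNReal.ofReal C * am2 M h n K S (pie K n g K S.b.τ) :=
          Finset.sum_le_sum fun S _ => ht S
      _ = ENNReal.ofReal C * ∑ S ∈ U.filter (fun S => a S ≠ 0), am2 M h n K S (pie K n g K S.b.τ) := by rw [Finset.mul_sum]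
      _ ≤ _ := mul_le_mul_right h1 _
  exact (ENNReal.ofReal_le_ofReal_iff (by positivity)).1 h2

end Vale.Agent.P106.AN.TopS

namespace Vale.Agent.P106.AN

open TopS in
/-- **[TOP]** from the multiscale theorem `StCORE N` to the estimate `StEn N` -/
theorem stTOP : StTOP := by
  intro N hN hAMP hWS hCORE ε hε
  obtain ⟨K, h, hK, hh2, hhK, hcore⟩ := hCORE (min ε 2) (lt_min hε two_pos)
  have hhε : (h:ℝ) ≤ ε * K := hhK.trans (mul_le_mul_of_nonneg_right (min_le_left _ _) (by positivity))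
  have hh2K : h ≤ 2 * K := by
    have : (h:ℝ) ≤ 2 * K := hhK.trans (mul_le_mul_of_nonneg_right (min_le_right _ _) (by positivity))
    exact_mod_cast this
  refine ⟨K, h, hK, hh2, hhε, ?_⟩
  intro M C0 hC0
  obtain ⟨CA, hCA, hamp⟩ := hAMP K h (M + 4) C0 hK (by omega) hh2K hC0
  refine ⟨CA, hCA, ?_⟩
  intro c hc
  have hCA' : CA ≤ max CA (1 / (8 * c)) := le_max_left _ _
  obtain ⟨D, hD, hcore⟩ := hcore (max CA (1 / (8 * c))) (hCA.trans hCA')
  obtain ⟨Ce, hCe, hen⟩ := energy hWS M CA hCA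
  have hN0 : 0 < N := by linarith
  have hp : (0:ℝ) ≤ 2 + 2 / N := by positivity
  have hCA0 : 0 ≤ CA := by linarith
  refine ⟨CA ^ (2 + 2 / N) * D * CA ^ (1 / N) * Ce + 1, by positivity, ?_⟩
  intro n ρ g Λ hDat hΛ hKT
  obtain ⟨F, hF0, hF1⟩ := hamp n ρ g hDat
  have hT : Tp CA (M + 4) K h n g (F.a K) := ⟨F.supp, hF1⟩
  have hcc : 1 / (8 * max CA (1 / (8 * c))) ≤ c := by
    have h1 : 1 / (8 * c) ≤ max CA (1 / (8 * c)) := le_max_right _ _
    have h2 : 0 < max CA (1 / (8 * c)) := by linarith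
    rw [div_le_iff₀ (by positivity)] at h1 ⊢
    linarith
  have hkt : ∀ (B : Cbx) (U : Finset Nd), B.ok (1 / (8 * max CA (1 / (8 * c)))) ((1 / 2 : ℝ) ^ (K * n)) (hh n h K) →
      (∀ S ∈ U, InB n h K B S) → ∑ S ∈ U, F.a K S ^ 2 ≤ CA * Λ * B.vol ((1 / 2 : ℝ) ^ (K * n)) (hh n h K) :=
    fun B U hB hU => ktop hCA0 hΛ hcc F.supp
      (fun S => (hF1 S).trans (mul_le_mul_right (am2_anti (by omega) S _) _)) hKT B U hB hU
  have hKTop : KTop (ampMono hCA' F) (CA * Λ) := fun B U hB hU => hkt B U hB hU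
  -- the main inequality, for any bound `E` of the energy
  have main : ∀ E : ℝ, 0 ≤ E → (∀ U : Finset Nd, ∑ S ∈ U, F.a K S ^ 2 ≤ E) →
      ∫⁻ z in {z : E4 | (∀ i, |z i| ≤ 2 ^ (2 * K * n)) ∧ 0 ≤ z 2}, ‖pie K n g 0 0 z‖ₑ ^ (2 + 2 / N) ≤
        ENNReal.ofReal (CA ^ (2 + 2 / N) * 2 ^ (h * n) *
          (D * 2 ^ (min ε 2 * (K * n)) * (CA * Λ) ^ (1 / N) * 2 ^ (4 * K * n) * E)) := by
    intro E hE hU
    have h1 := hcore n (ampMono hCA' F) (CA * Λ) E (by positivity) hKTop hU (XX K h n) (fun x hx => by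
      rw [mem_XX] at hx
      exact ⟨hx.1, hx.2.1, hx.2.2.1⟩)
    simp only [ampMono_a] at h1
    calc ∫⁻ z in {z : E4 | (∀ i, |z i| ≤ 2 ^ (2 * K * n)) ∧ 0 ≤ z 2}, ‖pie K n g 0 0 z‖ₑ ^ (2 + 2 / N)
        ≤ ∫⁻ z in ⋃ x ∈ XX K h n, cube h n x, ‖pie K n g 0 0 z‖ₑ ^ (2 + 2 / N) := lintegral_mono_set (half_subset K h n hh2K)
      _ ≤ ∑ x ∈ XX K h n, ∫⁻ z in cube h n x, ‖pie K n g 0 0 z‖ₑ ^ (2 + 2 / N) := lint_biUnion_le _ _ _
      _ ≤ ∑ x ∈ XX K h n, ENNReal.ofReal (CA ^ (2 + 2 / N) * 2 ^ (h * n) * F.a 0 x ^ (2 + 2 / N)) := by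
          refine Finset.sum_le_sum fun x hx => ?_
          rw [mem_XX] at hx
          refine (lint_cube h n x _ (2 + 2 / N) (CA * F.a 0 x) hp (mul_nonneg hCA0 (F.a0 0 x))
            (hF0 x hx.1 hx.2.1 hx.2.2.1 hx.2.2.2.1 hx.2.2.2.2)).trans (le_of_eq ?_)
          rw [Real.mul_rpow hCA0 (F.a0 0 x)]
          congr 1
          ring
      _ = ENNReal.ofReal (CA ^ (2 + 2 / N) * 2 ^ (h * n) * ∑ x ∈ XX K h n, F.a 0 x ^ (2 + 2 / N)) := by
          rw [← ENNReal.ofReal_sum_of_nonneg, Finset.mul_sum]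
          intro x _
          have := F.a0 0 x
          positivity
      _ ≤ _ := by
          apply ENNReal.ofReal_le_ofReal
          gcongr
  by_cases hΛ0 : Λ = 0
  · -- no mass at all
    have hz : ∀ U : Finset Nd, ∑ S ∈ U, F.a K S ^ 2 ≤ 0 := by
      intro U
      apply le_of_eq
      refine Finset.sum_eq_zero fun S _ => ?_
      have hc8 : 0 ≤ 1 / (8 * max CA (1 / (8 * c))) := by positivity
      have hH : 0 ≤ hh n h K := by unfold hh; positivity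
      have h5 := hkt ⟨0, 1, 1, 0, 0, W.ry n K S, s0 n K S.b.τ, W.rz n h K S⟩ {S}
        ⟨pow_le_one₀ (by norm_num) (by norm_num), le_rfl, le_rfl, by simpa using hc8, by simpa using hc8, by simp,
          by simp⟩ (by
          intro S' hS'
          rw [Finset.mem_singleton] at hS'
          subst hS'
          unfold InB Cbx.In
          simp [fw, fn])
      rw [Finset.sum_singleton, hΛ0] at h5
      have := sq_nonneg (F.a K S)
      linarith
    refine (main 0 le_rfl hz).trans ?_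
    simp
  · have hΛp : 0 < Λ := lt_of_le_of_ne hΛ (Ne.symm hΛ0)
    by_cases hE : enw M K n g = ⊤
    · rw [hE, ENNReal.mul_top]
      · exact le_top
      · rw [Ne, ENNReal.ofReal_eq_zero, not_le]
        positivity
    · have hr : ∀ U : Finset Nd, ∑ S ∈ U, F.a K S ^ 2 ≤ Ce * ((2:ℝ) ^ (h * n + 4 * K * n))⁻¹ * (enw M K n g).toReal := by
        intro U
        have h6 := hen K h n g (F.a K) hh2K hT U
        rw [← ENNReal.ofReal_toReal hE, ← ENNReal.ofReal_mul (by positivity)] at h6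
        exact (ENNReal.ofReal_le_ofReal_iff (by positivity)).1 h6
      refine (main _ (by positivity) hr).trans ?_
      calc _ ≤ ENNReal.ofReal ((CA ^ (2 + 2 / N) * D * CA ^ (1 / N) * Ce + 1) * 2 ^ (ε * (K * n)) * Λ ^ (1 / N) *
              (enw M K n g).toReal) := by
            apply ENNReal.ofReal_le_ofReal
            rw [Real.mul_rpow hCA0 hΛ, pow_add]
            have h4 : (2:ℝ) ^ (4 * K * n) ≠ 0 := by positivity
            have h4' : (2:ℝ) ^ (h * n) ≠ 0 := by positivity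
            have e1 : CA ^ (2 + 2 / N) * 2 ^ (h * n) * (D * 2 ^ (min ε 2 * (K * n)) * (CA ^ (1 / N) * Λ ^ (1 / N)) * 2 ^ (4 * K * n) *
                (Ce * ((2:ℝ) ^ (h * n) * 2 ^ (4 * K * n))⁻¹ * (enw M K n g).toReal)) =
                (CA ^ (2 + 2 / N) * D * CA ^ (1 / N) * Ce) * 2 ^ (min ε 2 * (K * n)) * Λ ^ (1 / N) * (enw M K n g).toReal := by
              field_simp
            rw [e1]
            have h7 : 0 ≤ (enw M K n g).toReal := ENNReal.toReal_nonneg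
            have h8 : (0:ℝ) ≤ 2 ^ (ε * (K * n)) := by positivity
            have h9 : (2:ℝ) ^ (min ε 2 * (K * n)) ≤ 2 ^ (ε * (K * n)) :=
              Real.rpow_le_rpow_of_exponent_le (by norm_num) (mul_le_mul_of_nonneg_right (min_le_left _ _) (by positivity))
            have h10 : 0 ≤ CA ^ (2 + 2 / N) * D * CA ^ (1 / N) * Ce := by positivity
            have h11 : 0 ≤ Λ ^ (1 / N) := by positivity
            gcongr
            linarith
        _ = _ := by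
            rw [ENNReal.ofReal_mul (by positivity), ENNReal.ofReal_toReal hE]

end Vale.Agent.P106.AN
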