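import Vale.Agent.P106.AN.Lem
import Vale.Agent.P106.AN.Mono

/-! # P106 / AN : from the multiscale amplitudes to the estimate (E): grouping and energy of the top planks (helper273) -/

open MeasureTheory Complex Set
open Vale.Agent.P122.C2 (Z2 fw fn par kids Cap)
open Vale.Agent.P106.W (Nd s0 tl Amp Cbx InB hh KTop StCORE)
open scoped ENNReal NNReal FourierTransform

set_option linter.all false
set_option autoImplicit false

namespace Vale.Agent.P106.AN.TopS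

/-- `Σ ∫ ≤ ∫ Σ` without measurability -/
theorem sum_lint_le {ι : Type*} (s : Finset ι) (f : ι → E4 → ℝ≥0∞) :
    ∑ i ∈ s, ∫⁻ z, f i z ≤ ∫⁻ z, ∑ i ∈ s, f i z := by
  classical
  induction s using Finset.induction_on with
  | empty => simp
  | insert i s hi ih =>
    rw [Finset.sum_insert hi]
    calc (∫⁻ z, f i z) + ∑ j ∈ s, ∫⁻ z, f j z ≤ (∫⁻ z, f i z) + ∫⁻ z, ∑ j ∈ s, f j z := by gcongr
      _ ≤ ∫⁻ z, (f i z + ∑ j ∈ s, f j z) := le_lintegral_add _ _
      _ = _ := by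
          congr 1
          ext z
          rw [Finset.sum_insert hi]

theorem desc_self (K n : ℕ) (τ : Z2) : desc K n K τ = {τ} := by
  unfold desc
  ext θ
  rw [Fintype.mem_piFinset, Finset.mem_singleton]
  constructor
  · intro h
    funext k
    have h1 := Finset.mem_Ico.1 (h k)
    simp only [Nat.sub_self, Nat.zero_mul, pow_zero, one_mul] at h1
    omega
  · rintro rfl k
    simp

theorem pie_self (K n : ℕ) (g : Z2 → E4 → ℂ) (τ : Z2) (z : E4) : pie K n g K τ z = 𝓕⁻ (g τ) z := by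
  unfold pie
  rw [desc_self, Finset.sum_singleton]

/-- what is known of the top amplitudes -/
structure Tp (C : ℝ) (M K h n : ℕ) (g : Z2 → E4 → ℂ) (a : Nd → ℝ) : Prop where
  supp : ∀ S, a S ≠ 0 → S.b.T = 0 ∧ Cap n K S.b.τ ∧ (∀ k, |(S.b.o k : ℝ)| ≤ C * 2 ^ (K * n)) ∧
    |(S.w : ℝ)| * 2 ^ (h * n) ≤ C * 2 ^ (2 * K * n)
  top : ∀ S, ENNReal.ofReal (a S ^ 2) ≤ ENNReal.ofReal C * am2 M h n K S (pie K n g K S.b.τ)

/-- the top plank with the cap `τ`, position `q.1`, null index `q.2` -/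
def nd (τ : Z2) (q : Z2 × ℤ) : Nd := ⟨⟨τ, q.1, 0⟩, q.2⟩

/-- grouping by the caps -/
theorem group (C : ℝ) (M K h n : ℕ) (g : Z2 → E4 → ℂ) (a : Nd → ℝ) (hT : Tp C M K h n g a) (U : Finset Nd)
    (V : Finset Z2) (W : Z2 → E4 → ℝ≥0∞) (hV : ∀ S ∈ U, a S ≠ 0 → S.b.τ ∈ V)
    (hW : ∀ τ ∈ V, ∀ O : Finset (Z2 × ℤ), (∀ q ∈ O, nd τ q ∈ U ∧ a (nd τ q) ≠ 0) →
      ∀ z, ∑ q ∈ O, wN M h n K (nd τ q) z ≤ W τ z) :
    ∑ S ∈ U, ENNReal.ofReal (a S ^ 2) ≤ ENNReal.ofReal C * (ENNReal.ofReal (((2:ℝ) ^ (h * n + 4 * K * n))⁻¹) *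
      ∑ τ ∈ V, ∫⁻ z, ‖𝓕⁻ (g τ) z‖ₑ ^ 2 * W τ z) := by
  classical
  have e1 : ∑ S ∈ U, ENNReal.ofReal (a S ^ 2) = ∑ S ∈ U.filter (fun S => a S ≠ 0), ENNReal.ofReal (a S ^ 2) := by
    rw [Finset.sum_filter]
    refine Finset.sum_congr rfl fun S _ => ?_
    by_cases h0 : a S = 0
    · simp [h0]
    · simp [h0]
  rw [e1]
  have hmaps : ∀ S ∈ U.filter (fun S => a S ≠ 0), S.b.τ ∈ V := by
    intro S hS
    rw [Finset.mem_filter] at hS
    exact hV S hS.1 hS.2
  calc ∑ S ∈ U.filter (fun S => a S ≠ 0), ENNReal.ofReal (a S ^ 2)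
      ≤ ∑ S ∈ U.filter (fun S => a S ≠ 0), ENNReal.ofReal C * am2 M h n K S (pie K n g K S.b.τ) :=
        Finset.sum_le_sum fun S _ => hT.top S
    _ = ∑ τ ∈ V, ∑ S ∈ (U.filter (fun S => a S ≠ 0)) with S.b.τ = τ,
          ENNReal.ofReal C * am2 M h n K S (pie K n g K S.b.τ) := (Finset.sum_fiberwise_of_maps_to hmaps _).symm
    _ ≤ ∑ τ ∈ V, ENNReal.ofReal C * (ENNReal.ofReal (((2:ℝ) ^ (h * n + 4 * K * n))⁻¹) *
          ∫⁻ z, ‖𝓕⁻ (g τ) z‖ₑ ^ 2 * W τ z) := by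
        refine Finset.sum_le_sum fun τ hτ => ?_
        set B := (U.filter (fun S => a S ≠ 0)).filter (fun S => S.b.τ = τ) with hB
        have hBm : ∀ S ∈ B, S ∈ U ∧ a S ≠ 0 ∧ S.b.τ = τ ∧ S.b.T = 0 := by
          intro S hS
          rw [hB, Finset.mem_filter, Finset.mem_filter] at hS
          exact ⟨hS.1.1, hS.1.2, hS.2, (hT.supp S hS.1.2).1⟩
        have hBe : ∀ S ∈ B, S = nd τ (S.b.o, S.w) := by
          intro S hS
          obtain ⟨_, _, h3, h4⟩ := hBm S hS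
          obtain ⟨⟨τ', o', T'⟩, w'⟩ := S
          simp only at h3 h4
          subst h3 h4
          rfl
        calc ∑ S ∈ B, ENNReal.ofReal C * am2 M h n K S (pie K n g K S.b.τ)
            = ENNReal.ofReal C * ∑ S ∈ B, am2 M h n K S (pie K n g K S.b.τ) := by rw [Finset.mul_sum]
          _ = ENNReal.ofReal C * (ENNReal.ofReal (((2:ℝ) ^ (h * n + 4 * K * n))⁻¹) *
                ∑ S ∈ B, ∫⁻ z, ‖𝓕⁻ (g τ) z‖ₑ ^ 2 * wN M h n K S z) := by
              congr 1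
              rw [Finset.mul_sum]
              refine Finset.sum_congr rfl fun S hS => ?_
              unfold am2
              congr 1
              refine lintegral_congr fun z => ?_
              rw [pie_self, (hBm S hS).2.2.1]
          _ ≤ ENNReal.ofReal C * (ENNReal.ofReal (((2:ℝ) ^ (h * n + 4 * K * n))⁻¹) *
                ∫⁻ z, ‖𝓕⁻ (g τ) z‖ₑ ^ 2 * W τ z) := by
              gcongr
              refine (sum_lint_le _ _).trans ?_
              refine lintegral_mono fun z => ?_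
              rw [← Finset.mul_sum]
              gcongr
              have e2 : ∑ S ∈ B, wN M h n K S z =
                  ∑ q ∈ B.image (fun S => ((S.b.o, S.w) : Z2 × ℤ)), wN M h n K (nd τ q) z := by
                rw [Finset.sum_image]
                · refine Finset.sum_congr rfl fun S hS => ?_
                  conv_lhs => rw [hBe S hS]
                · intro S hS S' hS' hSS
                  rw [hBe S hS, hBe S' hS']
                  exact congrArg (nd τ) hSS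
              rw [e2]
              refine hW τ hτ _ ?_ z
              intro o ho
              obtain ⟨S, hS, rfl⟩ := Finset.mem_image.1 ho
              rw [← hBe S hS]
              exact ⟨(hBm S hS).1, (hBm S hS).2.1⟩
    _ = _ := by rw [← Finset.mul_sum, ← Finset.mul_sum]

theorem norm_le4 (x : E4) : ‖x‖ ≤ |x 0| + |x 1| + |x 2| + |x 3| := by
  rw [EuclideanSpace.norm_eq, Fin.sum_univ_four]
  rw [Real.sqrt_le_left (by positivity)]
  simp only [Real.norm_eq_abs]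
  nlinarith [abs_nonneg (x 0), abs_nonneg (x 1), abs_nonneg (x 2), abs_nonneg (x 3), mul_nonneg (abs_nonneg (x 0)) (abs_nonneg (x 1)),
    mul_nonneg (abs_nonneg (x 0)) (abs_nonneg (x 2)), mul_nonneg (abs_nonneg (x 1)) (abs_nonneg (x 2)),
    mul_nonneg (abs_nonneg (x 0)) (abs_nonneg (x 3)), mul_nonneg (abs_nonneg (x 1)) (abs_nonneg (x 3)),
    mul_nonneg (abs_nonneg (x 2)) (abs_nonneg (x 3))]

/-- the weight of the cube dominates the weight of a sheared cube of slope at most one -/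
theorem wg_cube_le (M : ℕ) {R : ℝ} (hR : 0 < R) {s : Fin 2 → ℝ} (h0 : |s 0| ≤ 1) (h1 : |s 1| ≤ 1) (z : E4) :
    wg M 0 R R R R s z ≤ ENNReal.ofReal (6 ^ M) * ENNReal.ofReal (((1 + ‖z‖ / R) ^ M)⁻¹) := by
  unfold wg
  rw [← ENNReal.ofReal_mul (by positivity)]
  apply ENNReal.ofReal_le_ofReal
  have hg : 0 ≤ gau 0 R R R R s z := gau_nonneg hR hR hR hR s z
  have key : 1 + ‖z‖ / R ≤ 6 * (1 + gau 0 R R R R s z) := by
    have h4 : |z 0| ≤ |z 0 - s 0 * z 2| + |z 2| := by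
      have : z 0 = (z 0 - s 0 * z 2) + s 0 * z 2 := by ring
      calc |z 0| = |(z 0 - s 0 * z 2) + s 0 * z 2| := by rw [← this]
        _ ≤ |z 0 - s 0 * z 2| + |s 0 * z 2| := abs_add_le _ _
        _ ≤ _ := by rw [abs_mul]; nlinarith [abs_nonneg (z 2)]
    have h5 : |z 1| ≤ |z 1 - s 1 * z 2| + |z 2| := by
      have : z 1 = (z 1 - s 1 * z 2) + s 1 * z 2 := by ring
      calc |z 1| = |(z 1 - s 1 * z 2) + s 1 * z 2| := by rw [← this]
        _ ≤ |z 1 - s 1 * z 2| + |s 1 * z 2| := abs_add_le _ _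
        _ ≤ _ := by rw [abs_mul]; nlinarith [abs_nonneg (z 2)]
    have h6 : |z 3| ≤ |nl s z| + |z 0| + |z 1| + |z 2| := by
      have e : z 3 = nl s z + (s 0 * z 0 + s 1 * z 1) - (s 0 ^ 2 + s 1 ^ 2) / 2 * z 2 := by unfold nl; ring
      have a1 : |s 0 * z 0| ≤ |z 0| := by rw [abs_mul]; nlinarith [abs_nonneg (z 0)]
      have a2 : |s 1 * z 1| ≤ |z 1| := by rw [abs_mul]; nlinarith [abs_nonneg (z 1)]
      have a3 : |(s 0 ^ 2 + s 1 ^ 2) / 2 * z 2| ≤ |z 2| := by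
        rw [abs_mul]
        have b0 : s 0 ^ 2 ≤ 1 := by rw [← sq_abs]; nlinarith [abs_nonneg (s 0)]
        have b1 : s 1 ^ 2 ≤ 1 := by rw [← sq_abs]; nlinarith [abs_nonneg (s 1)]
        have b2 : |(s 0 ^ 2 + s 1 ^ 2) / 2| ≤ 1 := by
          rw [abs_of_nonneg (by positivity)]
          linarith
        nlinarith [abs_nonneg (z 2)]
      rw [e]
      have t1 := abs_sub (nl s z + (s 0 * z 0 + s 1 * z 1)) ((s 0 ^ 2 + s 1 ^ 2) / 2 * z 2)
      have t2 := abs_add_le (nl s z) (s 0 * z 0 + s 1 * z 1)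
      have t3 := abs_add_le (s 0 * z 0) (s 1 * z 1)
      linarith
    have h3 := norm_le4 z
    have h7 : gau 0 R R R R s z = (|nl s z| + |z 0 - s 0 * z 2| + |z 1 - s 1 * z 2| + |z 2|) / R := by
      unfold gau
      rw [fw_zero_frame, fn_zero_frame, dv_zero, dv_one]
      ring
    rw [h7]
    have h8 : ‖z‖ / R ≤ 6 * ((|nl s z| + |z 0 - s 0 * z 2| + |z 1 - s 1 * z 2| + |z 2|) / R) := by
      rw [← mul_div_assoc]
      apply div_le_div_of_nonneg_right _ hR.le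
      have := abs_nonneg (z 0 - s 0 * z 2)
      have := abs_nonneg (z 1 - s 1 * z 2)
      have := abs_nonneg (nl s z)
      have := abs_nonneg (z 2)
      linarith
    linarith
  have hz : 0 ≤ ‖z‖ / R := by positivity
  rw [inv_le_iff_one_le_mul₀ (by positivity)]
  have h8 : (1 + ‖z‖ / R) ^ M ≤ 6 ^ M * (1 + gau 0 R R R R s z) ^ M := by
    rw [← mul_pow]
    exact pow_le_pow_left₀ (by positivity) key M
  have h9 : (0:ℝ) < (1 + ‖z‖ / R) ^ M := by positivity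
  calc (1:ℝ) = (1 + ‖z‖ / R) ^ M * ((1 + ‖z‖ / R) ^ M)⁻¹ := (mul_inv_cancel₀ h9.ne').symm
    _ ≤ (6 ^ M * (1 + gau 0 R R R R s z) ^ M) * ((1 + ‖z‖ / R) ^ M)⁻¹ := by gcongr
    _ = _ := by ring

/-- [energy] -/
theorem energy (hWS : StWS) (M : ℕ) (C : ℝ) (hC : 1 ≤ C) : ∃ Ce : ℝ, 0 ≤ Ce ∧ ∀ (K h n : ℕ) (g : Z2 → E4 → ℂ) (a : Nd → ℝ),
    h ≤ 2 * K → Tp C (M + 4) K h n g a → ∀ U : Finset Nd,
    ENNReal.ofReal (∑ S ∈ U, a S ^ 2) ≤ ENNReal.ofReal (Ce * ((2:ℝ) ^ (h * n + 4 * K * n))⁻¹) * enw M K n g := by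
  classical
  obtain ⟨Cw, hCw, hws⟩ := hWS M (3 * C) (by linarith)
  refine ⟨C * (Cw * 6 ^ M), by positivity, ?_⟩
  intro K h n g a hhK hT U
  have hN : (0:ℝ) < 2 ^ (K * n) := by positivity
  have hH : (0:ℝ) < 2 ^ (h * n) := by positivity
  have hR : (2:ℝ) ^ (2 * K * n) = (2 ^ (K * n)) ^ 2 := by rw [← pow_mul]; congr 1; ring
  have hRp : (0:ℝ) < 2 ^ (2 * K * n) := by positivity
  have hHR : (2:ℝ) ^ (h * n) ≤ 2 ^ (2 * K * n) := pow_le_pow_right₀ (by norm_num) (Nat.mul_le_mul_right n hhK)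
  have h1N : (1:ℝ) ≤ 2 ^ (K * n) := one_le_pow₀ (by norm_num)
  have hNR : (2:ℝ) ^ (K * n) ≤ 2 ^ (2 * K * n) := by rw [hR]; nlinarith
  have hg := group C (M + 4) K h n g a hT U (desc K n 0 0)
    (fun τ z => ENNReal.ofReal (Cw * 6 ^ M) * ENNReal.ofReal (((1 + ‖z‖ / 2 ^ (2 * K * n)) ^ M)⁻¹)) ?_ ?_
  · rw [ENNReal.ofReal_sum_of_nonneg fun S _ => sq_nonneg _]
    refine hg.trans (le_of_eq ?_)
    have e1 : ∑ τ ∈ desc K n 0 0, ∫⁻ z, ‖𝓕⁻ (g τ) z‖ₑ ^ 2 *
        (ENNReal.ofReal (Cw * 6 ^ M) * ENNReal.ofReal (((1 + ‖z‖ / 2 ^ (2 * K * n)) ^ M)⁻¹)) =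
        ENNReal.ofReal (Cw * 6 ^ M) * enw M K n g := by
      unfold enw
      rw [Finset.mul_sum]
      refine Finset.sum_congr rfl fun τ _ => ?_
      rw [← lintegral_const_mul' _ _ ENNReal.ofReal_ne_top]
      refine lintegral_congr fun z => ?_
      ring
    rw [e1, ← mul_assoc, ← mul_assoc, ← ENNReal.ofReal_mul (by linarith), ← ENNReal.ofReal_mul (by positivity)]
    congr 2
    ring
  · intro S _ hS
    obtain ⟨_, hcap, _⟩ := hT.supp S hS
    unfold desc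
    rw [Fintype.mem_piFinset]
    intro k
    rw [Finset.mem_Ico]
    have := hcap k
    simp only [Nat.sub_zero, Pi.zero_apply, mul_zero, zero_add, mul_one]
    exact this
  · intro τ hτ O hO z
    rcases O.eq_empty_or_nonempty with rfl | ⟨o0, ho0⟩
    · simp
    have hcap := (hT.supp _ (hO o0 ho0).2).2.1
    have hs : ∀ k, |s0 n K τ k| ≤ 1 := by
      intro k
      have h1 := hcap k
      simp only [nd] at h1
      unfold s0
      have h2 : (0:ℝ) ≤ (τ k : ℝ) := by exact_mod_cast h1.1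
      have h3 : (τ k : ℝ) ≤ 2 ^ (K * n) := by exact_mod_cast h1.2.le
      rw [abs_of_nonneg (by positivity)]
      exact div_le_one_of_le₀ h3 (by positivity)
    have zfw : ∀ θ : ℝ, fw θ (fun i => s0 n K τ i - s0 n K τ i) = 0 := fun θ => by simp [fw]
    have zfn : ∀ θ : ℝ, fn θ (fun i => s0 n K τ i - s0 n K τ i) = 0 := fun θ => by simp [fn]
    have h4 := hws 0 (2 ^ (h * n)) (2 ^ (K * n)) (2 ^ (2 * K * n)) (2 ^ (2 * K * n)) (2 ^ (2 * K * n)) (2 ^ (2 * K * n))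
      (s0 n K τ) (s0 n K τ) O 0 0 hH hN hRp hHR hNR hNR
      (by rw [zfw, abs_zero, zero_mul]; positivity) (by rw [zfn, abs_zero, zero_mul]; positivity)
      (by rw [sub_self, abs_zero, zero_mul]; positivity) (by rw [sub_self, abs_zero, zero_mul]; positivity)
      (by rw [sub_self, sub_self]; simp; positivity) ?_ z
    · have e2 : ∑ q ∈ O, wN (M + 4) h n K (nd τ q) z = ∑ q ∈ O, wg (M + 4) 0 (2 ^ (h * n)) (2 ^ (K * n)) (2 ^ (K * n))
          (2 ^ (2 * K * n)) (s0 n K τ) (z - pt (2 ^ (h * n)) (2 ^ (K * n)) 0 (s0 n K τ) q.1 q.2) := by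
        refine Finset.sum_congr rfl fun q _ => ?_
        unfold wN bp nd
        simp only [Int.cast_zero, mul_zero]
      rw [e2]
      refine h4.trans ?_
      rw [sub_zero]
      refine (mul_le_mul_right (wg_cube_le M hRp (hs 0) (hs 1) z) (ENNReal.ofReal Cw)).trans (le_of_eq ?_)
      rw [ENNReal.ofReal_mul hCw]
      ring
    · intro q hq
      obtain ⟨_, _, h5, h6⟩ := hT.supp _ (hO q hq).2
      simp only [nd] at h5 h6
      rw [sub_zero]
      unfold gau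
      rw [nl_pt, fw_zero_frame, fn_zero_frame, dv_zero, dv_one, pt_zero, pt_one, pt_two, mul_zero, sub_zero, mul_zero, sub_zero,
        abs_zero, zero_div, add_zero]
      have a1 : |(2:ℝ) ^ (h * n) * (q.2 : ℝ)| / 2 ^ (2 * K * n) ≤ C := by
        rw [abs_mul, abs_of_pos hH, div_le_iff₀ hRp, mul_comm]
        exact h6
      have a2 : ∀ k, |(2:ℝ) ^ (K * n) * (q.1 k : ℝ)| / 2 ^ (2 * K * n) ≤ C := by
        intro k
        rw [abs_mul, abs_of_pos hN, div_le_iff₀ hRp, hR]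
        have := h5 k
        nlinarith
      have := a2 0
      have := a2 1
      linarith

end Vale.Agent.P106.AN.TopS
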